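import Vale.Agent.P235.K5.H316.Large
import Vale.Agent.P235.K5.SX.H332.NLit
import Vale.Agent.P235.K5.SX.H23.Elim
import Vale.Agent.P235.H786.TGlue

set_option linter.all false

/-!
# Local to global for tree decompositions with adhesions of at most `k` vertices (helper316)

A nonexpanding map into `L₁` which keeps, up to the factor `D`, the distances of the pairs that lie
in a common bag whose torso has treewidth more than `w`, gives `c₁ ≤ K(k, w, D)`.
-/

namespace Vale.Agent.P235.K5.H316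

open Finset Function MeasureTheory Vale.Agent.P235 Vale.Agent.P235.K5
open Vale.Agent.P235.H786 (TDec tor full le_full)

/-- clique sums over at most `k` vertices, no hypothesis left -/
theorem largeG (k w : ℕ) (c : ℝ) (hc : 0 < c) (hc1 : c ≤ 1) :
    ∃ K : ℝ, 1 ≤ K ∧ ∀ (V : Type) [Finite V] (G H : SimpleGraph V), G ≤ H → G.Connected →
      ∀ ℓ : Sym2 V → ℝ, (∀ e ∈ G.edgeSet, 0 < ℓ e) →
      ∀ (n : ℕ) (B : ℕ → Set V), Glued k H n B →
      ∀ F : V → V → ℝ, IsL1 F → (∀ x y, F x y ≤ pathDist G ℓ x y) →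
        (∀ t < n, TreewidthLE (H.induce (B t)) w ∨
          ∀ x ∈ B t, ∀ y ∈ B t, c * pathDist G ℓ x y ≤ F x y) →
          EmbedsL1 (pathDist G ℓ) K :=
  large SX.H332.s4 (fun W _ _ G w R => SX.H23.elim W G w R) k w c hc hc1

/-- some map `f` into an `L₁` does not expand the distances `d`, and shrinks `d x y` at most `D`
times for the pairs `x, y` in `P` -/
def EmbedsOn {V : Type} (d : V → V → ℝ) (P : V → V → Prop) (D : ℝ) : Prop :=
  ∃ (Ω : Type) (_ : MeasurableSpace Ω) (μ : Measure Ω) (f : V → Lp ℝ 1 μ),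
    (∀ x y, ‖f x - f y‖ ≤ d x y) ∧ ∀ x y, P x y → d x y ≤ D * ‖f x - f y‖

/-- `x` and `y` lie in a common bag whose torso has treewidth more than `w` -/
def InLarge {V ι : Type} (G : SimpleGraph V) (T : SimpleGraph ι) (B : ι → Set V) (w : ℕ)
    (x y : V) : Prop :=
  ∃ t, x ∈ B t ∧ y ∈ B t ∧ ¬ TreewidthLE ((tor G T B t).induce (B t)) w

/-- **Local to global.** -/
theorem local_global (k w : ℕ) (D : ℝ) (hD : 1 ≤ D) :
    ∃ K : ℝ, 1 ≤ K ∧ ∀ (V ι : Type) [Finite V] [Finite ι] (G : SimpleGraph V) (T : SimpleGraph ι)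
      (B : ι → Set V), G.Connected → TDec G T B → (∀ t s, T.Adj t s → (B t ∩ B s).ncard ≤ k) →
      ∀ ℓ : Sym2 V → ℝ, (∀ e ∈ G.edgeSet, 0 < ℓ e) →
        EmbedsOn (pathDist G ℓ) (InLarge G T B w) D → EmbedsL1 (pathDist G ℓ) K := by
  have hD0 : 0 < D := by linarith
  obtain ⟨K, hK, H⟩ := largeG k w (1 / D) (by positivity) (by rw [div_le_one hD0]; exact hD)
  refine ⟨K, hK, ?_⟩
  intro V ι _ _ G T B hG hB hk ℓ hℓ hf
  obtain ⟨Ω, hΩ, μ, f, h1, h2⟩ := hf
  obtain ⟨g, hg⟩ := hB.glued hk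
  refine H V G (full G T B) le_full hG ℓ hℓ _ _ hg
    (fun x y => ‖f x - f y‖) (L1S.isL1 ⟨Ω, hΩ, μ, f, fun _ _ => rfl⟩) h1 ?_
  intro t _
  by_cases hT : TreewidthLE ((tor G T B (g t)).induce (B (g t))) w
  · left
    show TreewidthLE ((full G T B).induce (B (g t))) w
    rw [hB.full_tor]
    exact hT
  · right
    intro x hx y hy
    have h3 := h2 x y ⟨g t, hx, hy, hT⟩
    rw [div_mul_eq_mul_div, one_mul, div_le_iff₀ hD0]
    linarith

/-- the converse -/
theorem on_of_embeds {V : Type} {d : V → V → ℝ} {D : ℝ} (hD : 0 < D) (h : EmbedsL1 d D)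
    (P : V → V → Prop) : EmbedsOn d P D := by
  obtain ⟨Ω, hΩ, μ, f, hf⟩ := h
  have key : ∀ x y, ‖(1 / D) • f x - (1 / D) • f y‖ = 1 / D * ‖f x - f y‖ := by
    intro x y
    rw [← smul_sub, norm_smul, Real.norm_of_nonneg (by positivity)]
  refine ⟨Ω, hΩ, μ, fun x => (1 / D) • f x, ?_, ?_⟩
  · intro x y
    rw [key, div_mul_eq_mul_div, one_mul, div_le_iff₀ hD]
    linarith [(hf x y).2]
  · intro x y _
    rw [key]
    have h1 : D * (1 / D * ‖f x - f y‖) = ‖f x - f y‖ := by field_simp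
    rw [h1]
    exact (hf x y).1

/-- **Both directions**: for the connected graphs with tree decompositions of adhesion at most `k`,
`c₁ ≤ D` implies that the pairs in large bags can be embedded with distortion `D`, and this implies
`c₁ ≤ K(k, w, D)`. -/
theorem local_iff (k w : ℕ) (D : ℝ) (hD : 1 ≤ D) :
    ∃ K : ℝ, 1 ≤ K ∧ ∀ (V ι : Type) [Finite V] [Finite ι] (G : SimpleGraph V) (T : SimpleGraph ι)
      (B : ι → Set V), G.Connected → TDec G T B → (∀ t s, T.Adj t s → (B t ∩ B s).ncard ≤ k) →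
      (DistortionLE G D → ∀ ℓ : Sym2 V → ℝ, (∀ e ∈ G.edgeSet, 0 < ℓ e) →
        EmbedsOn (pathDist G ℓ) (InLarge G T B w) D) ∧
      ((∀ ℓ : Sym2 V → ℝ, (∀ e ∈ G.edgeSet, 0 < ℓ e) →
        EmbedsOn (pathDist G ℓ) (InLarge G T B w) D) → DistortionLE G K) := by
  obtain ⟨K, hK, H⟩ := local_global k w D hD
  refine ⟨K, hK, fun V ι _ _ G T B hG hB hk => ⟨fun h ℓ hℓ => ?_, fun h ℓ hℓ => ?_⟩⟩
  · exact on_of_embeds (by linarith) (h ℓ hℓ) _
  · exact H V ι G T B hG hB hk ℓ hℓ (h ℓ hℓ)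

end Vale.Agent.P235.K5.H316
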