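import Vale.Agent.P235.K5.H12.Fin
import Vale.Agent.P235.K5.H320.Slot

set_option linter.all false

/-!
# Tree decompositions of adhesion at most `k`, bags of any size: only the pairs in a common bag
have to be embedded (helper316)
-/

namespace Vale.Agent.P235.K5.H316

open Finset Function MeasureTheory Vale.Agent.P235 Vale.Agent.P235.H684 Vale.Agent.P235.K5

/-- `B 0, …, B (m - 1)` (bags of any size) is a tree decomposition of `G`; the parent of the bag
`j > 0` is the bag `p j`, `p j < j`; every edge lies in a bag; every vertex has a bag `i` such that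
each other bag which contains it has a parent which contains it; a bag and its parent have at most
`k` common vertices. -/
structure TreeDec {V : Type} (k : ℕ) (G : SimpleGraph V) (m : ℕ) (p : ℕ → ℕ) (B : ℕ → Set V) :
    Prop where
  vertex : ∀ v, ∃ i, i < m ∧ v ∈ B i ∧ ∀ j, j < m → v ∈ B j → j ≠ i → 0 < j ∧ v ∈ B (p j)
  edge : ∀ u v, G.Adj u v → ∃ i, i < m ∧ u ∈ B i ∧ v ∈ B i
  parent : ∀ j, 0 < j → j < m → p j < j
  adh : ∀ j, 0 < j → j < m → (B j ∩ B (p j)).ncard ≤ k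

/-- the graph with complete adhesions -/
def cl {V : Type} (G : SimpleGraph V) (m : ℕ) (p : ℕ → ℕ) (B : ℕ → Set V) : SimpleGraph V where
  Adj u v := u ≠ v ∧ (G.Adj u v ∨ ∃ t, 0 < t ∧ t < m ∧ u ∈ B t ∩ B (p t) ∧ v ∈ B t ∩ B (p t))
  symm := ⟨fun _ _ ⟨h, h'⟩ =>
    ⟨h.symm, h'.imp (fun h => h.symm) fun ⟨t, a, b, c, d⟩ => ⟨t, a, b, d, c⟩⟩⟩
  loopless := ⟨fun _ h => h.1 rfl⟩

namespace TreeDec

variable {V : Type} {k m : ℕ} {G : SimpleGraph V} {p : ℕ → ℕ} {B : ℕ → Set V}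

theorem top_le (h : TreeDec k G m p B) {v : V} {i : ℕ}
    (hi : ∀ j, j < m → v ∈ B j → j ≠ i → 0 < j ∧ v ∈ B (p j)) :
    ∀ j, j < m → v ∈ B j → i ≤ j := by
  intro j
  induction j using Nat.strong_induction_on with
  | _ j ih =>
    intro hj hv
    by_cases e : j = i
    · exact e.ge
    · obtain ⟨h0, h1⟩ := hi j hj hv e
      have h2 := h.parent j h0 hj
      exact (ih _ h2 (h2.trans hj) h1).trans h2.le

theorem of_adh (h : TreeDec k G m p B) {t : ℕ} (ht : t < m) {v : V} (hv : v ∈ Adh B t) :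
    0 < t ∧ v ∈ B (p t) := by
  obtain ⟨i, hi, hvi, hall⟩ := h.vertex v
  obtain ⟨h1, s, hs, h2⟩ := hv
  have h3 := h.top_le hall s (hs.trans ht) h2
  exact hall t ht h1 (by omega)

theorem glued [Finite V] (h : TreeDec k G m p B) : Glued k (cl G m p B) m B := by
  refine ⟨?_, ?_, ?_, ?_⟩
  · intro v
    obtain ⟨i, hi, hv, _⟩ := h.vertex v
    exact ⟨i, hi, hv⟩
  · intro t ht
    rcases Nat.eq_zero_or_pos t with h0 | h0
    · have h1 : Adh B t = ∅ := by
        rw [Set.eq_empty_iff_forall_notMem]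
        intro v hv
        have := (h.of_adh ht hv).1
        omega
      rw [h1, Set.ncard_empty]
      exact Nat.zero_le _
    · refine (Set.ncard_le_ncard ?_ (Set.toFinite _)).trans (h.adh t h0 ht)
      intro v hv
      exact ⟨hv.1, (h.of_adh ht hv).2⟩
  · intro t ht u hu v hv huv
    exact ⟨huv, Or.inr ⟨t, (h.of_adh ht hu).1, ht, ⟨hu.1, (h.of_adh ht hu).2⟩,
      ⟨hv.1, (h.of_adh ht hv).2⟩⟩⟩
  · intro t ht u v hu hub hvb hv hadj
    have hcom : ∃ j, j < m ∧ u ∈ B j ∧ v ∈ B j := by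
      rcases hadj.2 with h1 | ⟨s, _, hs, h1, h2⟩
      · exact h.edge u v h1
      · exact ⟨s, hs, h1.1, h2.1⟩
    obtain ⟨iu, hiu, huiu, hau⟩ := h.vertex u
    obtain ⟨iv, hiv, hviv, hav⟩ := h.vertex v
    have e1 : iu = t := by
      have h1 := h.top_le hau t ht hu
      by_contra hne
      exact hub ⟨iu, by omega, huiu⟩
    have e2 : iv < t := by
      obtain ⟨s, hs, hvs⟩ := hvb
      have h1 := h.top_le hav s (hs.trans ht) hvs
      omega
    have key : ∀ j, j < m → u ∈ B j → v ∈ B j → False := by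
      intro j
      induction j using Nat.strong_induction_on with
      | _ j ih =>
        intro hj huj hvj
        have h1 := h.top_le hau j hj huj
        have h2 : j ≠ iu := by
          intro e
          rw [e, e1] at hvj
          exact hv hvj
        have h3 : j ≠ iv := by omega
        obtain ⟨h4, h5⟩ := hau j hj huj h2
        obtain ⟨_, h6⟩ := hav j hj hvj h3
        have h7 := h.parent j h4 hj
        exact ih _ h7 (h7.trans hj) h5 h6
    obtain ⟨j, hj, a, b⟩ := hcom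
    exact key j hj a b

end TreeDec

theorem glued_mono {k k' n : ℕ} {V : Type} {H : SimpleGraph V} {B : ℕ → Set V} (hk : k ≤ k')
    (h : Glued k H n B) : Glued k' H n B :=
  ⟨h.cover, fun t ht => (h.card t ht).trans hk, h.clique, h.sep⟩

/-- **Only the pairs in a common bag matter**: clique sums over at most `k` vertices, `k` arbitrary,
pieces of any size. -/
theorem locG (k : ℕ) (c : ℝ) (hc : 0 < c) (hc1 : c ≤ 1) :
    ∃ K : ℝ, 1 ≤ K ∧ ∀ (V : Type) [Finite V] (G H : SimpleGraph V), G ≤ H → G.Connected →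
      ∀ ℓ : Sym2 V → ℝ, (∀ e ∈ G.edgeSet, 0 < ℓ e) →
      ∀ (m : ℕ) (B : ℕ → Set V), Glued k H m B →
      ∀ F : V → V → ℝ, IsL1 F → (∀ x y, F x y ≤ pathDist G ℓ x y) →
        (∀ t < m, ∀ x ∈ B t, ∀ y ∈ B t, c * pathDist G ℓ x y ≤ F x y) →
          EmbedsL1 (pathDist G ℓ) K := by
  obtain ⟨C1, hC1, hN3⟩ := H320.nthm (max k 1) (le_max_right _ _)
  have hK : 0 < C1 * H254.KK (2 ^ (max k 1)) := mul_pos hC1 (KK_pos _)
  set c' : ℝ := min (c / 2) (c / (8 * (C1 * H254.KK (2 ^ (max k 1))))) / 2 with hc'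
  have hc'0 : 0 < c' := by
    rw [hc']
    have : 0 < min (c / 2) (c / (8 * (C1 * H254.KK (2 ^ (max k 1))))) :=
      lt_min (by positivity) (by positivity)
    linarith
  have hc'1 : c' ≤ 1 := by
    rw [hc']
    have : min (c / 2) (c / (8 * (C1 * H254.KK (2 ^ (max k 1))))) ≤ c / 2 := min_le_left _ _
    linarith
  refine ⟨1 / c', (one_le_div hc'0).2 hc'1, ?_⟩
  intro V _ G H hle hconn ℓ hℓ m0 B0 h0 FA hA hA1 hA0
  obtain ⟨m, B, h, hnew, hB⟩ := Glued.reduce m0 B0 (glued_mono (le_max_left k 1) h0)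
  obtain ⟨T⟩ := h.exists_tree
  have hd := pathDist_isMet hconn hℓ
  have hgenG : Gen G (pathDist G ℓ) := by
    intro f hf x y
    exact pathDist_gen hconn (fun u v huv => (hf u v huv).trans (pathDist_adj hℓ huv)) x y
  have hgen : Gen H (pathDist G ℓ) := fun f hf => hgenG f (fun u v huv => hf u v (hle huv))
  have hA2 : ∀ t < m, ∀ x ∈ B t, ∀ y ∈ B t, c * pathDist G ℓ x y ≤ FA x y := by
    intro t ht x hx y hy
    obtain ⟨s, hs, e, _⟩ := hB t ht
    rw [e] at hx hy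
    exact hA0 s hs x hx y hy
  obtain ⟨FN, hN0, hN1, hN2⟩ := H12.exists_N h hnew T (le_max_right _ _) hC1.le hN3 hd hgen
  have hN1' : ∀ x y, FN x y ≤ pathDist G ℓ x y := by
    refine hN0.le_of_gen hgen fun u v huv => ?_
    rcases le_total (h.it u) (h.it v) with h1 | h1
    · exact hN1 _ (h.it_lt v) u (h.edge huv h1) v (h.it_mem v)
    · exact hN1 _ (h.it_lt u) u (h.it_mem u) v (h.edge huv.symm h1)
  have hcr := H12.cross h T hd hc hc1 hK hA hN0 hA1 hA2 hN2
  have hemb : R2.H598.Emb (pathDist G ℓ) c' := by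
    refine ⟨fun x y => 1 / 2 * (FA x y + FN x y), (hA.add hN0).smul (by norm_num), ?_, ?_⟩
    · intro x y
      have h1 := hcr x y
      show _ ≤ 1 / 2 * (FA x y + FN x y)
      rw [hc']
      linarith
    · intro x y
      have h1 := hA1 x y
      have h2 := hN1' x y
      show 1 / 2 * (FA x y + FN x y) ≤ _
      linarith
  exact hemb.embedsL1 hc'0

/-- some map into an `L₁` does not expand the distances `d` and shrinks those inside the bags at
most `D` times -/
def BagEmbeds {V : Type} (d : V → V → ℝ) (m : ℕ) (B : ℕ → Set V) (D : ℝ) : Prop :=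
  ∃ (Ω : Type) (_ : MeasurableSpace Ω) (μ : Measure Ω) (f : V → Lp ℝ 1 μ),
    (∀ x y, ‖f x - f y‖ ≤ d x y) ∧ ∀ t < m, ∀ x ∈ B t, ∀ y ∈ B t, d x y ≤ D * ‖f x - f y‖

/-- **Local to global**, in the letters of tree decompositions. -/
theorem loc (k : ℕ) (D : ℝ) (hD : 1 ≤ D) :
    ∃ K : ℝ, 1 ≤ K ∧ ∀ (V : Type) [Finite V] (G : SimpleGraph V), G.Connected →
      ∀ (m : ℕ) (p : ℕ → ℕ) (B : ℕ → Set V), TreeDec k G m p B →
      ∀ ℓ : Sym2 V → ℝ, (∀ e ∈ G.edgeSet, 0 < ℓ e) → BagEmbeds (pathDist G ℓ) m B D →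
        EmbedsL1 (pathDist G ℓ) K := by
  have hD0 : 0 < D := by linarith
  obtain ⟨K, hK, H⟩ := locG k (1 / D) (by positivity) (by rw [div_le_one hD0]; exact hD)
  refine ⟨K, hK, ?_⟩
  intro V _ G hG m p B hB ℓ hℓ hf
  obtain ⟨Ω, hΩ, μ, f, h1, h2⟩ := hf
  refine H V G (cl G m p B) (fun u v huv => ⟨huv.ne, Or.inl huv⟩) hG ℓ hℓ m B hB.glued
    (fun x y => ‖f x - f y‖) (L1S.isL1 ⟨Ω, hΩ, μ, f, fun _ _ => rfl⟩) h1 ?_
  intro t ht x hx y hy
  have h3 := h2 t ht x hx y hy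
  rw [div_mul_eq_mul_div, one_mul, div_le_iff₀ hD0]
  linarith

/-- the converse -/
theorem bag_of_embeds {V : Type} {d : V → V → ℝ} {D : ℝ} (hD : 0 < D) (h : EmbedsL1 d D) (m : ℕ)
    (B : ℕ → Set V) : BagEmbeds d m B D := by
  obtain ⟨Ω, hΩ, μ, f, hf⟩ := h
  have key : ∀ x y, ‖(1 / D) • f x - (1 / D) • f y‖ = 1 / D * ‖f x - f y‖ := by
    intro x y
    rw [← smul_sub, norm_smul, Real.norm_of_nonneg (by positivity)]
  refine ⟨Ω, hΩ, μ, fun x => (1 / D) • f x, ?_, ?_⟩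
  · intro x y
    rw [key, div_mul_eq_mul_div, one_mul, div_le_iff₀ hD]
    linarith [(hf x y).2]
  · intro t _ x _ y _
    rw [key]
    have h1 : D * (1 / D * ‖f x - f y‖) = ‖f x - f y‖ := by field_simp
    rw [h1]
    exact (hf x y).1

end Vale.Agent.P235.K5.H316
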