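import Vale.Agent.P235.K5.SX.Asm
import Vale.Agent.P235.K5.H316.Loc
import Vale.Agent.P235.K5.H316.Ref

set_option linter.all false

/-!
# Only the pairs in a common LARGE bag have to be embedded (helper316)
-/

namespace Vale.Agent.P235.K5.H316

open Finset Function MeasureTheory Vale.Agent.P235 Vale.Agent.P235.H684 Vale.Agent.P235.K5

open Classical in
/-- the adhesion at which the region of small bags of `s` hangs -/
noncomputable def RR {V : Type} {m : ℕ} {C : ℕ → Set V} (T : BTree m C) (TT : ℕ → Prop) :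
    ℕ → Set V
  | s => if h : 0 < s ∧ T.par s < s ∧ TT (T.par s) then RR T TT (T.par s) else Adh C s
termination_by s => s
decreasing_by exact h.2.1

theorem RR_pos {V : Type} {m : ℕ} {C : ℕ → Set V} (T : BTree m C) (TT : ℕ → Prop) {s : ℕ}
    (h : 0 < s ∧ T.par s < s ∧ TT (T.par s)) : RR T TT s = RR T TT (T.par s) := by
  rw [RR, dif_pos h]

theorem RR_neg {V : Type} {m : ℕ} {C : ℕ → Set V} (T : BTree m C) (TT : ℕ → Prop) {s : ℕ}
    (h : ¬ (0 < s ∧ T.par s < s ∧ TT (T.par s))) : RR T TT s = Adh C s := by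
  rw [RR, dif_neg h]

theorem adh_zero {V : Type} (C : ℕ → Set V) : Adh C 0 = ∅ := by
  ext v
  simp only [Set.mem_empty_iff_false, iff_false]
  rintro ⟨-, s, hs, -⟩
  omega

theorem region {V : Type} {m : ℕ} {C : ℕ → Set V} (T : BTree m C) (TT : ℕ → Prop)
    (h1 : ∀ s < m, TT s → ∃ v, v ∉ Adh C s ∧ C s = insert v (Adh C s)) :
    SX.Region m C T TT (RR T TT) where
  one := h1
  step := by
    intro s hs _ h0
    have h2 := T.par_lt s h0 hs
    by_cases h3 : TT (T.par s)
    · right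
      exact ⟨h3, (RR_pos T TT ⟨h0, h2, h3⟩).symm⟩
    · left
      rw [RR_neg T TT (fun h => h3 h.2.2)]

theorem RR_sub {V : Type} {m : ℕ} {C : ℕ → Set V} (T : BTree m C) (TT : ℕ → Prop) :
    ∀ s < m, RR T TT s = ∅ ∨ ∃ t < m, ¬ TT t ∧ RR T TT s ⊆ C t := by
  intro s
  induction s using Nat.strong_induction_on with
  | _ s ih =>
    intro hs
    by_cases h : 0 < s ∧ T.par s < s ∧ TT (T.par s)
    · rw [RR_pos T TT h]
      exact ih _ h.2.1 (h.2.1.trans hs)
    · rw [RR_neg T TT h]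
      rcases Nat.eq_zero_or_pos s with h0 | h0
      · left
        rw [h0, adh_zero]
      · right
        have h2 := T.par_lt s h0 hs
        exact ⟨T.par s, h2.trans hs, fun h3 => h ⟨h0, h2, h3⟩, T.adh s h0 hs⟩

/-- fine letters: the small bags have one new vertex each -/
theorem fine (hN : SX.NStmt) (k : ℕ) (hk : 1 ≤ k) (c : ℝ) (hc : 0 < c) (hc1 : c ≤ 1) :
    ∃ D : ℝ, 0 < D ∧ D ≤ 1 ∧ ∀ (V : Type) [Finite V] (H : SimpleGraph V) (m : ℕ) (C : ℕ → Set V),
      Glued k H m C → ∀ TT : ℕ → Prop, (∀ t < m, ∃ v ∈ C t, v ∉ Bef C t) →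
      (∀ s < m, TT s → ∃ v, v ∉ Adh C s ∧ C s = insert v (Adh C s)) →
      ∀ d : V → V → ℝ, IsMet d → Gen H d → ∀ F : V → V → ℝ, IsL1 F → (∀ x y, F x y ≤ d x y) →
      (∀ s < m, ¬ TT s → ∀ x ∈ C s, ∀ y ∈ C s, c * d x y ≤ F x y) → R2.H598.Emb d D := by
  obtain ⟨cN, C2, hcN, hcN1, hC2, HN⟩ := hN k hk
  set c0 : ℝ := cN * c / 16 with hc0def
  have hc0 : 0 < c0 := by positivity
  have hcc : cN * c ≤ c := by nlinarith
  have hc01 : c0 ≤ 1 := by rw [hc0def]; linarith
  refine ⟨min (c0 / 2) (c0 / (8 * C2)) / 2, ?_, ?_, ?_⟩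
  · have : 0 < min (c0 / 2) (c0 / (8 * C2)) := lt_min (by positivity) (by positivity)
    linarith
  · have : min (c0 / 2) (c0 / (8 * C2)) ≤ c0 / 2 := min_le_left _ _
    linarith
  intro V _ H m C h TT hnew h1 d hd hgen A hA0 hA1 hA2
  obtain ⟨Y⟩ := h.exists_tree
  obtain ⟨N, hN0, hN1, hN2, hN3⟩ := HN V H m C h Y TT (RR Y TT) hnew (region Y TT h1) d hd hgen
  have hFA : IsL1 fun x y => 1 / 2 * (A x y + N x y) := (hA0.add hN0).smul (by norm_num)
  have hFA1 : ∀ x y, 1 / 2 * (A x y + N x y) ≤ d x y := by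
    intro x y
    have g1 := hA1 x y
    have g2 := hN1 x y
    linarith
  have hmix : ∀ s < m, ∀ x ∈ C s, ∀ y ∈ C s, c0 * d x y ≤ 1 / 2 * (A x y + N x y) := by
    intro s hs x hx y hy
    have hdn := hd.nonneg x y
    have hAn := hA0.nonneg x y
    have hNn := hN0.nonneg x y
    have hcd : 0 ≤ c * d x y := mul_nonneg hc.le hdn
    have hcd2 : cN * c * d x y ≤ c * d x y := mul_le_mul_of_nonneg_right hcc hdn
    by_cases hT : TT s
    · by_cases hfar : ∀ r ∈ RR Y TT s, ∀ r' ∈ RR Y TT s, c / 8 * d x y ≤ d x r + d y r'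
      · have h2 : c / 8 * d x y ≤ d x y := by nlinarith
        have h3 := hN3 s hs hT x hx y hy _ h2 hfar
        rw [hc0def]
        nlinarith
      · push Not at hfar
        obtain ⟨r, hr, r', hr', h4⟩ := hfar
        rcases RR_sub Y TT s hs with h5 | ⟨t, ht, h5, h6⟩
        · rw [h5] at hr
          exact hr.elim
        · have h7 := hA2 t ht h5 r (h6 hr) r' (h6 hr')
          have h8 := hA1 x r
          have h9 := hA1 y r'
          have e1 := hA0.tri r x r'
          have e2 := hA0.tri x y r'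
          rw [hA0.symm r x] at e1
          have e3 := hd.tri x r y
          have e4 := hd.tri r r' y
          rw [hd.symm r' y] at e4
          have e5 : c * (d x y - (d x r + d y r')) ≤ c * d r r' :=
            mul_le_mul_of_nonneg_left (by linarith) hc.le
          have e6 : 0 ≤ d x r + d y r' := add_nonneg (hd.nonneg _ _) (hd.nonneg _ _)
          have e7 : c * (d x r + d y r') ≤ 1 * (d x r + d y r') :=
            mul_le_mul_of_nonneg_right hc1 e6
          rw [hc0def]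
          nlinarith
    · have h2 := hA2 s hs hT x hx y hy
      rw [hc0def]
      nlinarith
  have hcr := H12.cross h Y hd hc0 hc01 hC2 hFA hN0 hFA1 hmix hN2
  refine ⟨fun x y => 1 / 2 * (1 / 2 * (A x y + N x y) + N x y), (hFA.add hN0).smul (by norm_num),
    ?_, ?_⟩
  · intro x y
    have g1 := hcr x y
    show _ ≤ 1 / 2 * (1 / 2 * (A x y + N x y) + N x y)
    linarith
  · intro x y
    have g1 := hFA1 x y
    have g2 := hN1 x y
    show 1 / 2 * (1 / 2 * (A x y + N x y) + N x y) ≤ _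
    linarith

/-- **Only the pairs in a common bag of treewidth more than `w` matter**: clique sums over at most
`k` vertices. -/
theorem large (hN : SX.NStmt) (hE : SX.H803.ElimStmt) (k w : ℕ) (c : ℝ) (hc : 0 < c)
    (hc1 : c ≤ 1) :
    ∃ K : ℝ, 1 ≤ K ∧ ∀ (V : Type) [Finite V] (G H : SimpleGraph V), G ≤ H → G.Connected →
      ∀ ℓ : Sym2 V → ℝ, (∀ e ∈ G.edgeSet, 0 < ℓ e) →
      ∀ (n : ℕ) (B : ℕ → Set V), Glued k H n B →
      ∀ F : V → V → ℝ, IsL1 F → (∀ x y, F x y ≤ pathDist G ℓ x y) →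
        (∀ t < n, TreewidthLE (H.induce (B t)) w ∨
          ∀ x ∈ B t, ∀ y ∈ B t, c * pathDist G ℓ x y ≤ F x y) →
          EmbedsL1 (pathDist G ℓ) K := by
  obtain ⟨D, hD, hD1, HD⟩ := fine hN (max (max k w) 1) (le_max_right _ _) c hc hc1
  refine ⟨1 / D, (one_le_div hD).2 hD1, ?_⟩
  intro V _ G H hle hconn ℓ hℓ n B hB F hF hF1 hF2
  have hd := pathDist_isMet hconn hℓ
  have hgenG : Gen G (pathDist G ℓ) := by
    intro f hf x y
    exact pathDist_gen hconn (fun u v huv => (hf u v huv).trans (pathDist_adj hℓ huv)) x y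
  have hgen : Gen H (pathDist G ℓ) := SX.gen_le hle hgenG
  obtain ⟨H', n', B', φ, g1, _, g3, g4, _, g6, _, g8, _⟩ :=
    refineK hE (w := w) (fun t => TreewidthLE (H.induce (B t)) w) hB (fun t _ h => h)
  refine (HD V H' n' B' (glued_mono (le_max_left _ _) g3)
    (fun s => TreewidthLE (H.induce (B (φ s))) w) g6 ?_ _ hd (SX.gen_le g1 hgen) F hF hF1
    ?_).embedsL1 hD
  · intro s hs hT
    rcases g8 s hs with ⟨h1, _, _⟩ | ⟨_, v, h1, h2⟩
    · exact absurd hT h1
    · exact ⟨v, fun hv => h1 hv.2, h2⟩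
  · intro s hs hT x hx y hy
    rcases g8 s hs with ⟨_, h1, _⟩ | ⟨h1, _⟩
    · rw [h1] at hx hy
      exact (hF2 (φ s) (g4 s hs)).resolve_left hT x hx y hy
    · exact absurd h1 hT

end Vale.Agent.P235.K5.H316
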